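import Vale.Agent.P296.Final
import Vale.Agent.P296.H354.Defs
import Vale.Agent.P296.H354.Main

namespace Vale.Agent.Results.P296.AllDimRank

open Vale.Agent.P296.Final Vale.Agent.P296.H354

/-- **Griffiths' positivity conjecture is false in every dimension `n ≥ 2` and every rank
`r ≥ 2`**: on the abelian variety `ℂⁿ/ℤ[i]ⁿ` there is an ample holomorphic vector bundle of rank `r`
which carries no smooth Hermitian metric with strictly Griffiths positive Chern curvature. The first
part is the case of surfaces and rank two. -/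
theorem result :
    (∃ E : Bundle gauss 2, E.IsAmple ∧ ∀ H : Metric E, ¬ H.GriffithsPositive) ∧
    ∀ n r : ℕ, 2 ≤ n → 2 ≤ r →
      ∃ E : Bundle (gaussN n) r, E.IsAmple ∧ ∀ H : Metric E, ¬ H.GriffithsPositive := by
  refine ⟨?_, all_dim_rank⟩
  obtain ⟨ε, h0, h⟩ := Vale.Agent.P296.bundle_no_griffiths
  exact Vale.Agent.P296.Transfer.final_of (Vale.Agent.P296.bundle ε h0)
    (Vale.Agent.P296.bundle_isAmple h0) (h ε h0 le_rfl)

end Vale.Agent.Results.P296.AllDimRank
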