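import Vale.Agent.P296.Final
import Vale.Agent.P296.H599.Defs
import Vale.Agent.P296.H599.Met2

namespace Vale.Agent.Results.P296.ConvexFinsler

open Vale.Agent.P296.Final Vale.Agent.P296.H599

/-- **Griffiths' positivity conjecture is false**, for Hermitian metrics and even for convex Finsler
metrics, also after every finite covering. (1) There is an ample holomorphic vector bundle `E` of
rank two on the abelian surface `X = ℂ²/ℤ[i]²` which has no smooth Hermitian metric with strictly
Griffiths positive curvature. (2) For some such `E`, no smooth negatively curved Finsler metric on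
the dual bundle is convex. (3) For every subgroup `L ⊆ ℤ[i]²` of finite index all this is true of the
pullback of this `E` to the covering `ℂ²/L` of `X`. -/
theorem result :
    (∃ E : Bundle gauss 2, E.IsAmple ∧ ∀ H : Metric E, ¬ H.GriffithsPositive) ∧
    ∃ E : Bundle gauss 2, (E.IsAmple ∧ ∀ H : Metric E, ¬ H.GriffithsPositive) ∧
      (∀ F : DualFinsler E, Positive F → ¬ Convex F) ∧
      ∀ (L : AddSubgroup (ℂ × ℂ)) (hL : ∀ l ∈ L, l ∈ gauss),
        (∃ k : ℕ, k ≠ 0 ∧ ∀ z ∈ gauss, k • z ∈ L) →
          (pull E L hL).IsAmple ∧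
          (∀ H : Metric (pull E L hL), ¬ H.GriffithsPositive) ∧
          ∀ F : DualFinsler (pull E L hL), Positive F → ¬ Convex F := by
  obtain ⟨E, h1, h2, h3⟩ := Vale.Agent.P296.H599.main
  exact ⟨⟨E, h1⟩, E, h1, h2, h3⟩

end Vale.Agent.Results.P296.ConvexFinsler
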